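import Vale.Agent.N231.Cut
import Mathlib.Analysis.SpecialFunctions.Trigonometric.InverseDeriv

/-! Sufficient conditions for critical cut points; the models are Blaschke manifolds. -/

set_option maxSynthPendingDepth 3
set_option linter.unusedSectionVars false

open Bundle Manifold Set Filter
open scoped ContDiff Topology

namespace Vale.Agent.N231

open Vale.Agent.P234

variable {E : Type*} [NormedAddCommGroup E] [NormedSpace ℝ E] [FiniteDimensional ℝ E]
  {M : Type*} [MetricSpace M] [ChartedSpace E M] [IsManifold 𝓘(ℝ, E) ∞ M]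
  [RiemannianBundle (fun x : M => TangentSpace 𝓘(ℝ, E) x)]
  [IsContMDiffRiemannianBundle 𝓘(ℝ, E) ∞ E (fun x : M => TangentSpace 𝓘(ℝ, E) x)]
  [CompactSpace M] {e : ∀ x : M, TangentSpace 𝓘(ℝ, E) x → M} {p : M} {D : ℝ}

theorem injOn_of {q : M} (h : edist p q ≤ injAt e p) : InjOn (e p) (Metric.ball 0 (dist p q)) := by
  intro v hv w hw hvw
  rw [mem_ball_zero_iff] at hv hw
  have h0 : 0 ≤ max ‖v‖ ‖w‖ := le_max_of_le_left (norm_nonneg v)
  obtain ⟨r, hr⟩ := lt_iSup_iff.1 (((ENNReal.ofReal_lt_ofReal_iff_of_nonneg h0).2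
    (max_lt hv hw)).trans_le (edist_dist p q ▸ h))
  obtain ⟨⟨φ, h1, h2⟩, h3⟩ := lt_iSup_iff.1 hr
  have h4 := max_lt_iff.1 ((ENNReal.ofReal_lt_ofReal_iff_of_nonneg h0).1 h3)
  have k1 : v ∈ φ.source := h1 ▸ mem_ball_zero_iff.2 h4.1
  have k2 : w ∈ φ.source := h1 ▸ mem_ball_zero_iff.2 h4.2
  exact φ.toPartialEquiv.injOn k1 k2 (((h2 v k1).trans hvw).trans (h2 w k2).symm)

theorem smooth_of {W : Type*} [NormedAddCommGroup W] [NormedSpace ℝ W] {B : W → W → ℝ}
    (hB : ContDiff ℝ ∞ fun q : W × W => B q.1 q.2) {Φ : M → W}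
    (hΦ : ContMDiff 𝓘(ℝ, E) 𝓘(ℝ, W) ∞ Φ) {f : ℝ → ℝ} (h : ∀ x y, dist x y = f (B (Φ x) (Φ y)))
    (hf : ∀ s, 0 < f s → f s < D → ContDiffAt ℝ ∞ f s) (x y : M) (h1 : 0 < dist x y)
    (h2 : dist x y < D) : SmoothAt E x y := by
  filter_upwards [((isOpen_lt continuous_const continuous_dist).inter
    (isOpen_lt continuous_dist continuous_const)).mem_nhds (show (x, y) ∈ _ from ⟨h1, h2⟩)]
    with q hq
  have k := ((((hf _ (h _ _ ▸ hq.1) (h _ _ ▸ hq.2)).pow 2).div_const 2).comp (Φ q.1, Φ q.2)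
    hB.contDiffAt).contMDiffAt.comp q
      (((hΦ.comp contMDiff_fst).prodMk_space (hΦ.comp contMDiff_snd)) q)
  exact k.congr_of_eventuallyEq (Eventually.of_forall fun z => by simp [cost, h])

theorem smooth_isoP {W : Type*} [NormedAddCommGroup W] [NormedSpace ℝ W] {B : W → W → ℝ}
    (hB : ContDiff ℝ ∞ fun q : W × W => B q.1 q.2) {S : Set W} (h : IsoP E M B S D) (x y : M) :
    0 < dist x y → dist x y < D → SmoothAt E x y := by
  obtain ⟨Φ, h1, h2⟩ := h
  refine smooth_of hB h1.1.contMDiff (f := fun s => 2 * D / Real.pi * Real.arccos √s) h2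
    (fun s k1 k2 => contDiffAt_const.mul ((Real.contDiffAt_arccos ?_ ?_).comp s
      (Real.contDiffAt_sqrt ?_))) x y
  · linarith [Real.sqrt_nonneg s]
  · intro k
    simp [k] at k1
  · rintro rfl
    rw [Real.sqrt_zero, Real.arccos_zero] at k2
    exact k2.ne (by field_simp)

theorem cd_ipM {K : Type*} [NormedAddCommGroup K] [InnerProductSpace ℝ K] {m : ℕ} :
    ContDiff ℝ ∞ fun q : (Fin m → Fin m → K) × (Fin m → Fin m → K) => ipM q.1 q.2 :=
  ContDiff.sum fun _ _ => ContDiff.sum fun _ _ => ContDiff.inner ℝ (by fun_prop) (by fun_prop)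

theorem smooth_cross (h : Cross E M D) (x y : M) :
    0 < dist x y → dist x y < D → SmoothAt E x y := by
  rcases h.2 with ⟨Φ, h1, h2⟩ | h | ⟨_, -, h⟩ | ⟨_, -, h⟩ | ⟨-, h⟩
  · refine smooth_of (contDiff_fst.inner ℝ contDiff_snd) h1.1.contMDiff
      (f := fun s => D / Real.pi * Real.arccos s) h2
      (fun s k1 k2 => contDiffAt_const.mul (Real.contDiffAt_arccos ?_ ?_)) x y
    · rintro rfl
      rw [Real.arccos_neg_one] at k2
      exact k2.ne (by field_simp)
    · rintro rfl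
      simp at k1
  · exact smooth_isoP cd_ipM h x y
  · exact smooth_isoP cd_ipM h x y
  · exact smooth_isoP cd_ipM h x y
  · refine smooth_isoP (ContDiff.sum fun i _ => ContDiff.sum fun j _ => ?_) h x y
    exact (ContDiff.inner ℝ (f := fun q : P231Z.Alb × P231Z.Alb => (q.1 i j).1)
      (g := fun q => (q.2 i j).1) (by fun_prop) (by fun_prop)).add
      (ContDiff.inner ℝ (f := fun q : P231Z.Alb × P231Z.Alb => (q.1 i j).2)
        (g := fun q => (q.2 i j).2) (by fun_prop) (by fun_prop))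

variable (F : Facts e)
include F

theorem inj_of_smooth (h : ∀ x y : M, 0 < dist x y → dist x y < D → SmoothAt E x y) (x : M)
    (v : TangentSpace 𝓘(ℝ, E) x) (hv : ‖v‖ ≤ D) : dist x (e x v) = ‖v‖ := by
  rcases eq_or_ne v 0 with rfl | hv0
  · simp [F.isExp.map_zero]
  obtain ⟨ρ, hρ, -, hs⟩ := F.short
  have key : Icc (0 : ℝ) 1 ⊆ {t | t • v ∈ segMin e x} := by
    refine IsClosed.Icc_subset_of_forall_exists_gt (((closedK F x).preimage
      (continuous_id.smul continuous_const)).inter isClosed_Icc)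
      (by simp [segMin, F.isExp.map_zero]) fun t ht y hy => ?_
    obtain ⟨h1, h2, h3⟩ := ht
    have h4 : SmoothAt E x (e x (t • v)) := by
      rcases lt_or_ge (dist x (e x (t • v))) ρ with k | k
      · exact hs _ _ k
      · refine h _ _ (hρ.trans_le k) ?_
        rw [show dist x (e x (t • v)) = ‖t • v‖ from h1, norm_smul, Real.norm_of_nonneg h2]
        nlinarith [norm_pos_iff.2 hv0]
    have h5 : ∀ᶠ b in 𝓝 (t • v), b ∈ segMin e x := by
      filter_upwards [eventually_logMap_exp F.isExp F.hopfRinow h1 h4,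
        (cexp F x).continuousAt.eventually (eventually_logMap F.isExp F.hopfRinow h4)] with b k k'
      exact k ▸ k'.1
    exact (((((continuous_id.smul continuous_const).continuousAt (x := t)).eventually
      h5).filter_mono nhdsWithin_le_nhds).and (Ioc_mem_nhdsGT hy)).exists
  simpa [segMin] using key ⟨zero_le_one, le_rfl⟩

theorem crit_or (h : ∀ w ∈ segMin e p, w ≠ 0 → ∀ q, ‖w‖ < dist p q →
    Extends p (e p w) ∨ Critical p (e p w)) (y : M) : Extends p y ∨ Critical p y := by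
  by_cases hy : ∀ q, dist p q ≤ dist p y
  · exact .inr fun ε hε => .of_forall fun z => (hy z).trans (le_add_of_nonneg_right (by positivity))
  push Not at hy
  obtain ⟨q, hq⟩ := hy
  obtain ⟨w, h1, rfl⟩ := hr F p y
  rcases eq_or_ne w 0 with rfl | hw
  · exact .inl ⟨q, fun k => hq.ne' (by rw [k]), by simp [F.isExp.map_zero]⟩
  · exact h w h1 hw q ((show dist p (e p w) = ‖w‖ from h1) ▸ hq)

theorem crit_of_injAt (h : ∀ q, edist p q ≤ injAt e p) (y : M) : Extends p y ∨ Critical p y := by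
  refine crit_or F (fun w _ hw q hq => .inl ?_) y
  have hn := norm_pos_iff.2 hw
  obtain ⟨a, h1, h2⟩ := exists_between ((one_lt_div hn).2 hq)
  obtain ⟨u, h3, h4⟩ := hr F p (e p (a • w))
  have h5 : ‖a • w‖ < dist p q := by
    rwa [norm_smul, Real.norm_of_nonneg (by linarith), ← lt_div_iff₀ hn]
  have h6 : ‖u‖ ≤ ‖a • w‖ :=
    (show dist p (e p u) = ‖u‖ from h3) ▸ h4.symm ▸ dist_exp_le' F.isExp p _
  exact extends_of F hw h1 (injOn_of (h q) (mem_ball_zero_iff.2 (h6.trans_lt h5))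
    (mem_ball_zero_iff.2 h5) h4 ▸ h3)

theorem crit_of_two {y : M} {u : TangentSpace 𝓘(ℝ, E) y} (hu : 0 < ‖u‖) (h1 : u ∈ segMin e y)
    (h2 : -u ∈ segMin e y) (s1 : SmoothAt E y (e y u)) (s2 : SmoothAt E y (e y (-u)))
    (d1 : dist p (e y u) ≤ dist p y - ‖u‖) (d2 : dist p (e y (-u)) ≤ dist p y - ‖u‖) :
    Critical p y := by
  intro ε hε
  have g := (hasFDerivAt_cost_zero F.isExp y u h1 s1).add
    (hasFDerivAt_cost_zero F.isExp y (-u) h2 s2)
  rw [map_neg, neg_neg, neg_add_cancel] at g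
  obtain ⟨η, hη, k⟩ := Metric.eventually_nhds_iff.1
    (g.isLittleO.bound (show 0 < 2 * ‖u‖ * ε by positivity))
  filter_upwards [Metric.ball_mem_nhds y hη] with z hz
  obtain ⟨ξ, k1, rfl⟩ := hr F y z
  have k2 : dist y (e y ξ) = ‖ξ‖ := k1
  have k3 := (le_abs_self _).trans (k (y := ξ) (by rwa [dist_zero_right, ← k2, dist_comm]))
  simp only [Pi.add_apply, F.isExp.map_zero, cost, sub_zero, _root_.zero_apply,
    show dist y (e y u) = ‖u‖ from h1, show dist y (e y (-u)) = ‖-u‖ from h2, norm_neg] at k3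
  have k4 := dist_triangle_right p (e y ξ) (e y u)
  have k5 := dist_triangle_right p (e y ξ) (e y (-u))
  rw [k2]
  by_contra! k6
  have k7 : 0 ≤ ε * ‖ξ‖ := by positivity
  have k8 := pow_lt_pow_left₀ (show ‖u‖ + ε * ‖ξ‖ < dist (e y ξ) (e y u) by linarith)
    (by positivity) two_ne_zero
  have k9 := pow_lt_pow_left₀ (show ‖u‖ + ε * ‖ξ‖ < dist (e y ξ) (e y (-u)) by linarith)
    (by positivity) two_ne_zero
  nlinarith [sq_nonneg (ε * ‖ξ‖)]

theorem crit_of_closed (h : ∀ v : TangentSpace 𝓘(ℝ, E) p, ‖v‖ = 1 → ∃ L > 0,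
    Function.Periodic (fun t : ℝ => e p (t • v)) (2 * L) ∧ dist p (e p (L • v)) = L) (y : M) :
    Extends p y ∨ Critical p y := by
  refine crit_or F (fun w h1 hw _ _ => ?_) y
  have hn := norm_pos_iff.2 hw
  have hv : ‖‖w‖⁻¹ • w‖ = 1 := norm_smul_inv_norm (𝕜 := ℝ) hw
  obtain ⟨L, hL, h2, h3⟩ := h _ hv
  generalize hvw : ‖w‖⁻¹ • w = v at hv h2 h3
  have e1 : w = ‖w‖ • v := by rw [← hvw, smul_inv_smul₀ hn.ne']
  have hs : ∀ t : ℝ, ‖t • v‖ = |t| := fun t => by rw [norm_smul, hv, mul_one, Real.norm_eq_abs]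
  rcases lt_trichotomy ‖w‖ L with k | k | k
  · refine .inl (extends_of F hw ((one_lt_div hn).2 k) ?_)
    rw [div_eq_mul_inv, mul_smul, hvw]
    exact h3.trans ((hs L).trans (abs_of_pos hL)).symm
  · rw [e1, k]
    obtain ⟨ρ, hρ, hmin, hsm⟩ := F.short
    obtain ⟨δ, d0, d1⟩ := exists_between (lt_min hL hρ)
    rw [lt_min_iff] at d1
    obtain ⟨u, u1, u2⟩ := F.flow p v L
    rw [hv] at u1
    have u3 : ∀ t : ℝ, |t| = δ → t • u ∈ segMin e _ := fun t ht => by
      have := hmin _ u 0 t (by rw [u1, sub_zero, ht]; linarith)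
      rw [zero_smul, F.isExp.map_zero, sub_zero, mul_comm] at this
      exact this.trans (norm_smul t u).symm
    have u4 : ‖δ • u‖ = δ := by rw [norm_smul, u1, mul_one, Real.norm_of_nonneg d0.le]
    have a1 := u3 δ (abs_of_pos d0)
    have a2 := u3 (-δ) (by rw [abs_neg, abs_of_pos d0])
    rw [neg_smul] at a2
    refine .inr (crit_of_two F (u4.symm ▸ d0) a1 a2 (hsm _ _ (a1.trans_lt (u4.trans_lt d1.2)))
      (hsm _ _ (a2.trans_lt ((norm_neg _).trans_lt (u4.trans_lt d1.2)))) ?_ ?_)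
    · rw [u2, h3, u4, show L + δ = δ - L + 2 * L by ring]
      refine (congrArg (dist p) (h2 (δ - L))).trans_le ((dist_exp_le' F.isExp p _).trans_eq ?_)
      rw [hs, abs_of_neg (by linarith), neg_sub]
    · rw [← neg_smul, u2, h3, u4]
      refine (dist_exp_le' F.isExp p _).trans_eq ?_
      rw [hs, abs_of_pos (by linarith), sub_eq_add_neg]
  · have a1 := dist_exp_le F.isExp p v (0 + 2 * L) ‖w‖
    rw [show e p ((0 + 2 * L) • v) = e p ((0 : ℝ) • v) from h2 0, zero_smul, F.isExp.map_zero,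
      ← e1, show dist p (e p w) = ‖w‖ from h1, hv, mul_one, le_abs] at a1
    rcases a1 with a1 | a1 <;> linarith

end Vale.Agent.N231
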