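import Vale.Agent.P231Z.Oct.Defs
import Mathlib.Analysis.InnerProductSpace.PiL2
import Mathlib.Analysis.Quaternion
import Mathlib.Analysis.SpecialFunctions.Trigonometric.Inverse
import Mathlib.Geometry.Manifold.LocalDiffeomorph
import Mathlib.Geometry.Manifold.Riemannian.Basic
import Mathlib.Geometry.Manifold.SmoothEmbedding

/-! The definitions of the statement: geodesics, the exponential map, the injectivity radius, the
compact rank one symmetric spaces, and critical points of distance functions. -/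

set_option maxSynthPendingDepth 3

open Bundle Manifold Set Filter
open scoped ContDiff Topology ENNReal

namespace Vale.Agent.N231

noncomputable section

variable (E : Type*) [NormedAddCommGroup E] [NormedSpace ℝ E]
  {M : Type*} [MetricSpace M] [ChartedSpace E M]
  [RiemannianBundle (fun x : M => TangentSpace 𝓘(ℝ, E) x)]

/-- the coefficients `g_q(a, b)` of the Riemannian metric in the chart at `p` -/
def gc (p : M) (q a b : E) : ℝ :=
  inner ℝ (mfderiv 𝓘(ℝ, E) 𝓘(ℝ, E) (extChartAt 𝓘(ℝ, E) p).symm q a)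
    (mfderiv 𝓘(ℝ, E) 𝓘(ℝ, E) (extChartAt 𝓘(ℝ, E) p).symm q b)

/-- the geodesic equation `g_kl c''^k + (∂_i g_jl - ∂_l g_ij / 2) c'^i c'^j = 0` at time `t`, in the
chart at `p` -/
def GeodEq (p : M) (c : ℝ → E) (t : ℝ) : Prop :=
  ∀ b : E, gc E p (c t) (deriv (deriv c) t) b +
    (fderiv ℝ (fun q => gc E p q (deriv c t) b) (c t) (deriv c t) -
      fderiv ℝ (fun q => gc E p q (deriv c t) (deriv c t)) (c t) b / 2) = 0

/-- a smooth curve which near every time `t₀` solves the geodesic equation in the chart at `γ t₀` -/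
def IsGeodesic (γ : ℝ → M) : Prop :=
  ContMDiff 𝓘(ℝ, ℝ) 𝓘(ℝ, E) ∞ γ ∧
    ∀ t₀ : ℝ, ∀ᶠ t in 𝓝 t₀, GeodEq E (γ t₀) (fun s => extChartAt 𝓘(ℝ, E) (γ t₀) (γ s)) t

/-- `Φ` is a smooth embedding of `M` in the vector space `W` with image `S`, which pulls the inner
product `B` back to `c` times the Riemannian metric -/
def IsoOnto {W : Type*} [NormedAddCommGroup W] [NormedSpace ℝ W] (B : W → W → ℝ) (S : Set W)
    (c : ℝ) (Φ : M → W) : Prop :=
  IsSmoothEmbedding 𝓘(ℝ, E) 𝓘(ℝ, W) ∞ Φ ∧ range Φ = S ∧ ∀ (x : M) (u v : TangentSpace 𝓘(ℝ, E) x),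
    B (mfderiv 𝓘(ℝ, E) 𝓘(ℝ, W) Φ x u) (mfderiv 𝓘(ℝ, E) 𝓘(ℝ, W) Φ x v) = c * inner ℝ u v

/-- `KPⁿ`, as the set of the projectors `z z*`, `z` a unit vector of `Kⁿ⁺¹` -/
def Proj (K : Type*) [NormedRing K] [Star K] (n : ℕ) : Set (Fin (n + 1) → Fin (n + 1) → K) :=
  {X | ∃ z : Fin (n + 1) → K, ∑ i, ‖z i‖ ^ 2 = 1 ∧ ∀ i j, X i j = z i * star (z j)}

/-- the inner product `Re tr (X Y*)` of matrices -/
def ipM {K : Type*} [NormedAddCommGroup K] [InnerProductSpace ℝ K] {m : ℕ}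
    (X Y : Fin m → Fin m → K) : ℝ := ∑ i, ∑ j, inner ℝ (X i j) (Y i j)

variable (M) in
/-- `M` is isometric up to scale to the set `S` of projectors, and its distance is the
Fubini-Study distance scaled to the diameter `D` -/
def IsoP {W : Type*} [NormedAddCommGroup W] [NormedSpace ℝ W] (B : W → W → ℝ) (S : Set W)
    (D : ℝ) : Prop :=
  ∃ Φ : M → W, IsoOnto E B S (Real.pi ^ 2 / (2 * D ^ 2)) Φ ∧
    ∀ x y, dist x y = 2 * D / Real.pi * Real.arccos √(B (Φ x) (Φ y))

variable (M) in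
/-- `M` is isometric up to scale to the unit sphere of `W`, and its distance is the angle scaled to
the diameter `D` -/
def IsoS (W : Type*) [NormedAddCommGroup W] [InnerProductSpace ℝ W] (D : ℝ) : Prop :=
  ∃ Φ : M → W, IsoOnto E (inner ℝ) (Metric.sphere 0 1) (Real.pi ^ 2 / D ^ 2) Φ ∧
    ∀ x y, dist x y = D / Real.pi * Real.arccos (inner ℝ (Φ x) (Φ y))

variable (M) in
/-- `M` is `KPᵏ` scaled to the diameter `D` -/
def IsoK (K : Type*) [NormedRing K] [InnerProductSpace ℝ K] [Star K] (k : ℕ) (D : ℝ) : Prop :=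
  IsoP E M ipM (Proj K k) D

variable (M) in
/-- `M` is a sphere, a real, complex or quaternionic projective space or the Cayley plane, scaled
to the diameter `D` -/
def Cross (D : ℝ) : Prop :=
  0 < D ∧ (IsoS E M (EuclideanSpace ℝ (Fin (Module.finrank ℝ E + 1))) D ∨
    IsoK E M ℝ (Module.finrank ℝ E) D ∨
    (∃ k, 2 * k = Module.finrank ℝ E ∧ IsoK E M ℂ k D) ∨
    (∃ k, 4 * k = Module.finrank ℝ E ∧ IsoK E M (Quaternion ℝ) k D) ∨
    (Module.finrank ℝ E = 16 ∧ IsoP E M P231Z.ipA {X | P231Z.Ver X} D))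

omit [RiemannianBundle (fun x : M => TangentSpace 𝓘(ℝ, E) x)] in
/-- `f` restricted to the open ball of radius `r` is a diffeomorphism onto its image -/
def DiffBall {V : Type*} [NormedAddCommGroup V] [NormedSpace ℝ V] (f : V → M) (r : ℝ) : Prop :=
  ∃ φ : PartialDiffeomorph 𝓘(ℝ, V) 𝓘(ℝ, E) V M ∞,
    φ.source = Metric.ball 0 r ∧ ∀ v ∈ φ.source, φ v = f v

variable {E}

/-- the exponential map: `e x v = γ 1` for a geodesic `γ` with `γ 0 = x` and `γ' 0 = v` -/
def IsExp (e : ∀ x : M, TangentSpace 𝓘(ℝ, E) x → M) : Prop :=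
  ∀ (x : M) (v : TangentSpace 𝓘(ℝ, E) x), ∃ γ : ℝ → M, IsGeodesic E γ ∧ γ 0 = x ∧
    mfderiv 𝓘(ℝ, ℝ) 𝓘(ℝ, E) γ 0 (1 : ℝ) = (v : E) ∧ γ 1 = e x v

/-- `inj_p`: the supremum of the `r` such that `e p` restricted to the open ball of radius `r` is a
diffeomorphism onto its image -/
def injAt (e : ∀ x : M, TangentSpace 𝓘(ℝ, E) x → M) (p : M) : ℝ≥0∞ :=
  ⨆ (r : ℝ) (_ : DiffBall E (e p) r), ENNReal.ofReal r

/-- the injectivity radius -/
def inj (e : ∀ x : M, TangentSpace 𝓘(ℝ, E) x → M) : ℝ≥0∞ := ⨅ p : M, injAt e p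

/-- `y` is a critical point of the distance from `p`: the distance increases to first order in no
direction -/
def Critical (p y : M) : Prop := ∀ ε > 0, ∀ᶠ z in 𝓝 y, dist p z ≤ dist p y + ε * dist y z

end

end Vale.Agent.N231
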