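import Mathlib.Analysis.Calculus.MeanValue
import Mathlib.Analysis.InnerProductSpace.Calculus

/-! A star-shaped set on whose boundary the norm is critical is rotation invariant. -/

open Set Filter
open scoped Topology

namespace Vale.Agent.N231

theorem radial {V : Type*} [NormedAddCommGroup V] [InnerProductSpace ℝ V] {K : Set V} {R : ℝ}
    (hK : IsClosed K) (hst : ∀ v ∈ K, ∀ t : ℝ, 0 ≤ t → t ≤ 1 → t • v ∈ K)
    (hR : ∀ v ∈ K, ‖v‖ ≤ R) (hO : IsOpen {v | ∃ a : ℝ, 1 < a ∧ a • v ∈ K})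
    (hc : ∀ a ∈ K, (¬ ∃ t : ℝ, 1 < t ∧ t • a ∈ K) → ∀ ε > 0,
      ∀ᶠ b in 𝓝 a, b ∈ K → ‖b‖ ≤ ‖a‖ + ε * ‖b - a‖)
    {v w : V} (hv : v ∈ K) (hw : ‖w‖ = ‖v‖) (hne : w ≠ -v) : w ∈ K := by
  have h0 : (0 : V) ∈ K := by simpa using hst v hv 0 le_rfl zero_le_one
  have hOK : ∀ u : V, (∃ a : ℝ, 1 < a ∧ a • u ∈ K) → u ∈ K := fun u ⟨a, ha, h⟩ => by
    simpa [smul_smul, inv_mul_cancel₀ (by linarith : a ≠ 0)] using
      hst _ h a⁻¹ (by positivity) (inv_le_one_of_one_le₀ ha.le)
  rcases eq_or_ne v 0 with rfl | hv0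
  · rwa [norm_eq_zero.1 (hw.trans norm_zero)]
  have hn : 0 < ‖v‖ := norm_pos_iff.2 hv0
  let u : ℝ → V := fun s => (1 - s) • w + s • v
  have hu : ∀ s, u s ≠ 0 := fun s h => by
    have h1 : (1 - s) • w = -(s • v) := eq_neg_of_add_eq_zero_left h
    have h2 := congrArg norm h1
    rw [norm_neg, norm_smul, norm_smul, hw, Real.norm_eq_abs, Real.norm_eq_abs] at h2
    have h3 : s = 1 / 2 := by
      rcases abs_eq_abs.1 (mul_right_cancel₀ hn.ne' h2) with h | h <;> linarith
    rw [h3, show (1 : ℝ) - 1 / 2 = 1 / 2 by norm_num, ← smul_neg] at h1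
    exact hne (smul_right_injective V (by norm_num) h1)
  let c : ℝ → V := fun s => ‖u s‖⁻¹ • u s
  have hc1 : ∀ s, ‖c s‖ = 1 := fun s => norm_smul_inv_norm (𝕜 := ℝ) (hu s)
  have hud : Differentiable ℝ u := by fun_prop
  have hcd : Differentiable ℝ c :=
    ((hud.norm ℝ hu).inv fun s => norm_ne_zero_iff.2 (hu s)).smul hud
  have hns : ∀ (t : ℝ) s, 0 ≤ t → ‖t • c s‖ = t := fun t s ht => by
    rw [norm_smul, hc1, mul_one, Real.norm_of_nonneg ht]
  let g : ℝ → ℝ := fun s => sSup {t : ℝ | 0 ≤ t ∧ t • c s ∈ K}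
  have hb : ∀ s, BddAbove {t : ℝ | 0 ≤ t ∧ t • c s ∈ K} := fun s =>
    ⟨R, fun t ht => hns t s ht.1 ▸ hR _ ht.2⟩
  have hg : ∀ s, 0 ≤ g s ∧ g s • c s ∈ K := fun s =>
    IsClosed.csSup_mem (s := {t : ℝ | 0 ≤ t ∧ t • c s ∈ K})
      ((isClosed_le continuous_const continuous_id).inter
      (hK.preimage (continuous_id.smul continuous_const))) ⟨0, le_rfl, by simpa using h0⟩ (hb s)
  have hle : ∀ s t, 0 ≤ t → t • c s ∈ K → t ≤ g s := fun s t h h' => le_csSup (hb s) ⟨h, h'⟩
  have hin : ∀ s t, 0 < t → t < g s → ∃ a : ℝ, 1 < a ∧ a • t • c s ∈ K := fun s t h h' =>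
    ⟨g s / t, (one_lt_div h).2 h', by
      rw [smul_smul, div_mul_cancel₀ _ h.ne']
      exact (hg s).2⟩
  have hpos : ∀ s, 0 < g s := fun s => by
    have h1 : Tendsto (fun t : ℝ => t • c s) (𝓝[>] 0) (𝓝 0) :=
      (Continuous.tendsto' (f := fun t : ℝ => t • c s) (by fun_prop) _ _
        (zero_smul _ _)).mono_left nhdsWithin_le_nhds
    obtain ⟨t, h2, h3⟩ := ((h1.eventually (hO.mem_nhds ⟨2, one_lt_two, by simpa using h0⟩)).and
      self_mem_nhdsWithin).exists
    exact lt_of_lt_of_le h3 (hle s t (le_of_lt h3) (hOK _ h2))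
  have hgc : Continuous g := continuous_iff_continuousAt.2 fun s => by
    have h1 : ∀ r : ℝ, ContinuousAt (fun z => r • c z) s := fun r =>
      (hcd.continuous.const_smul r).continuousAt
    refine tendsto_order.2 ⟨fun r hr => ?_, fun r hr => ?_⟩
    · obtain ⟨t, h2, h3⟩ := exists_between (max_lt hr (hpos s))
      have h4 := (le_max_right _ _).trans_lt h2
      filter_upwards [(h1 t).eventually (hO.mem_nhds (hin s t h4 h3))] with z hz
      exact ((le_max_left _ _).trans_lt h2).trans_le (hle z t h4.le (hOK _ hz))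
    · have h2 := (hpos s).trans hr
      filter_upwards [(h1 r).eventually (hK.isOpen_compl.mem_nhds
        fun h => hr.not_ge (hle s r h2.le h))] with z hz
      refine not_le.1 fun h => hz ?_
      rcases h.lt_or_eq with h | h
      · exact hOK _ (hin z r h2 h)
      · exact h ▸ (hg z).2
  have key : g 1 ≤ g 0 := image_le_of_liminf_slope_right_le_deriv_boundary (B := fun _ => g 0)
    (B' := fun _ => 0) hgc.continuousOn le_rfl continuousOn_const
    (fun x _ => hasDerivWithinAt_const _ _ _) (fun x _ r hr => by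
      obtain ⟨C, hC, h1⟩ := (hcd x).isBigO_sub.exists_pos
      have hA : 0 ≤ g x * C := mul_nonneg (hg x).1 hC.le
      have h2 := ((hgc.smul hcd.continuous).continuousAt (x := x)).eventually (hc _ (hg x).2
        (fun ⟨t, h3, h4⟩ => by
          rw [smul_smul] at h4
          have := hle x _ (mul_nonneg (by linarith) (hg x).1) h4
          nlinarith [hpos x]) (r / (2 * (r + g x * C + 1))) (by positivity))
      refine Eventually.frequently ?_
      filter_upwards [nhdsWithin_le_nhds h1.bound, nhdsWithin_le_nhds h2, self_mem_nhdsWithin]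
        with z k1 k2 k3
      have k4 : 0 < z - x := sub_pos.2 k3
      have k5 : ‖g z • c z‖ ≤ _ + _ * ‖g z • c z - _‖ := k2 (hg z).2
      rw [hns _ _ (hg z).1, hns _ _ (hg x).1] at k5
      have k6 : ‖g z • c z - g x • c x‖ ≤ |g z - g x| + g x * C * (z - x) := by
        rw [show g z • c z - g x • c x = (g z - g x) • c z + g x • (c z - c x) by module]
        refine (norm_add_le _ _).trans (add_le_add (by rw [norm_smul, hc1, mul_one]; rfl) ?_)
        rw [norm_smul, Real.norm_of_nonneg (hg x).1, mul_assoc]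
        rw [Real.norm_of_nonneg k4.le] at k1
        exact mul_le_mul_of_nonneg_left k1 (hg x).1
      rw [slope_def_field, div_lt_iff₀ k4]
      rcases le_or_gt (g z) (g x) with h | h
      · nlinarith [mul_pos hr k4]
      · rw [abs_of_pos (sub_pos.2 h)] at k6
        have k7 := k5.trans (add_le_add le_rfl (mul_le_mul_of_nonneg_left k6 (by positivity)))
        rw [← sub_le_iff_le_add', div_mul_eq_mul_div, le_div_iff₀ (by positivity)] at k7
        by_contra! k8
        nlinarith [mul_nonneg hA (sub_nonneg.2 k8), mul_pos hr (sub_pos.2 h),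
          mul_nonneg hA (sub_pos.2 h).le]) ⟨zero_le_one, le_rfl⟩
  have e1 : ‖v‖ • c 1 = v := by simp [c, u, smul_smul, hn.ne']
  have e0 : ‖v‖ • c 0 = w := by simp [c, u, smul_smul, hw, hn.ne']
  rcases ((hle 1 _ hn.le (e1.symm ▸ hv)).trans key).lt_or_eq with h | h
  · exact e0 ▸ hOK _ (hin 0 _ hn h)
  · exact e0 ▸ h ▸ (hg 0).2

end Vale.Agent.N231
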