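import Vale.Agent.P231.Bd3.B1
import Vale.Agent.N231.Star
import Vale.Agent.N231.Defs

/-! If all cut points are critical, all geodesics minimise up to the diameter. -/

set_option maxSynthPendingDepth 3
set_option linter.unusedSectionVars false

open Bundle Manifold Set Filter
open scoped ContDiff Topology

namespace Vale.Agent.N231

open Vale.Agent.P234

/-- `y` is not a cut point of `p`: it lies between `p` and some point `z ≠ y` -/
def Extends {M : Type*} [MetricSpace M] (p y : M) : Prop :=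
  ∃ z, z ≠ y ∧ dist p z = dist p y + dist y z

variable {E : Type*} [NormedAddCommGroup E] [NormedSpace ℝ E] [FiniteDimensional ℝ E]
  {M : Type*} [MetricSpace M] [ChartedSpace E M] [IsManifold 𝓘(ℝ, E) ∞ M]
  [RiemannianBundle (fun x : M => TangentSpace 𝓘(ℝ, E) x)]
  [IsContMDiffRiemannianBundle 𝓘(ℝ, E) ∞ E (fun x : M => TangentSpace 𝓘(ℝ, E) x)]
  [CompactSpace M] {e : ∀ x : M, TangentSpace 𝓘(ℝ, E) x → M} (F : Facts e) {p : M}
include F

theorem hr (x y : M) : ∃ v ∈ segMin e x, e x v = y :=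
  let ⟨v, h1, h2⟩ := F.hopfRinow x y
  ⟨v, show dist x (e x v) = ‖v‖ from h1.symm ▸ h2, h1⟩

theorem cexp (p : M) : Continuous (e p) := (contMDiff_exp_fiber F.isExp p).continuous

theorem closedK (p : M) : IsClosed (segMin e p) :=
  isClosed_eq (continuous_const.dist (cexp F p)) continuous_norm

theorem ext_of {w : TangentSpace 𝓘(ℝ, E) p} {a : ℝ} (ha : 1 < a) (h : a • w ∈ segMin e p) :
    dist p (e p (a • w)) = dist p (e p w) + dist (e p w) (e p (a • w)) ∧
      dist (e p w) (e p (a • w)) = (a - 1) * ‖w‖ := by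
  have h0 : 0 < a := by linarith
  have h1 := segMin_dist F.isExp h (s := a⁻¹) (t := 1) (by positivity)
    (inv_le_one_of_one_le₀ ha.le) le_rfl
  have h2 : dist p (e p w) = ‖w‖ :=
    injDomain_subset_segMin F.isExp p ((mem_injDomain_iff F.isExp).2 ⟨a, ha, h⟩)
  rw [one_smul, smul_smul, inv_mul_cancel₀ h0.ne', one_smul, norm_smul,
    Real.norm_of_nonneg h0.le] at h1
  have h3 : (1 - a⁻¹) * (a * ‖w‖) = (a - 1) * ‖w‖ := by field_simp
  rw [show dist p (e p (a • w)) = ‖a • w‖ from h, h1, h2, h3, norm_smul, Real.norm_of_nonneg h0.le]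
  exact ⟨by ring, rfl⟩

theorem extends_of {w : TangentSpace 𝓘(ℝ, E) p} (hw : w ≠ 0) {a : ℝ} (ha : 1 < a)
    (h : a • w ∈ segMin e p) : Extends p (e p w) :=
  ⟨_, fun k => (mul_pos (sub_pos.2 ha) (norm_pos_iff.2 hw)).ne'
    (by rw [← (ext_of F ha h).2, k, dist_self]), (ext_of F ha h).1⟩

theorem inj_of_extends {a : TangentSpace 𝓘(ℝ, E) p} (ha : a ∈ segMin e p)
    (h : Extends p (e p a)) : ∃ t : ℝ, 1 < t ∧ t • a ∈ segMin e p := by
  obtain ⟨z, hz, h⟩ := h
  obtain ⟨w, h1, h2, t, h3, h4, h5, -⟩ := F.between h.symm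
  have h6 := smul_mem_injDomain F.isExp h1 h3 (lt_of_le_of_ne h4 fun k => hz (by
    rw [← h5, k, one_smul, h2]))
  exact (mem_injDomain_iff F.isExp).1 (F.injDomain_unique h6 ha h5.symm ▸ h6)

theorem exp_lip (a : TangentSpace 𝓘(ℝ, E) p) :
    ∃ C > 0, ∀ᶠ b in 𝓝 a, dist (e p a) (e p b) ≤ C * ‖b - a‖ := by
  obtain ⟨L, h1, h2, h3, -⟩ := F.smoothLog (zero_mem_injDomain F.isExp (e p a))
  rw [F.isExp.map_zero] at h1 h2 h3
  have h4 := (contMDiffAt_iff_contDiffAt.1
    (h1.comp a (contMDiff_exp_fiber F.isExp p a))).differentiableAt (by simp)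
  obtain ⟨C, hC, h5⟩ := h4.isBigO_sub.exists_pos
  refine ⟨C, hC, ?_⟩
  filter_upwards [h5.bound, (cexp F p).continuousAt.eventually h3] with b k1 k2
  have k3 : dist (e p a) (e (e p a) (L (e p b))) = ‖L (e p b)‖ := k2.1
  rw [k2.2] at k3
  simpa only [Function.comp, h2, sub_zero, k3] using k1

theorem neg_mem {v : TangentSpace 𝓘(ℝ, E) p} (hv : v ∈ segMin e p)
    (H : ∀ u : TangentSpace 𝓘(ℝ, E) p, ‖u‖ = ‖v‖ → u = v ∨ u = -v) : -v ∈ segMin e p := by
  rcases eq_or_ne v 0 with rfl | hv0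
  · rwa [neg_zero]
  have hn : 0 < ‖v‖ := norm_pos_iff.2 hv0
  obtain ⟨ρ, hρ, hmin, -⟩ := F.short
  have key : Icc (0 : ℝ) 1 ⊆ {t | (-t) • v ∈ segMin e p} := by
    refine IsClosed.Icc_subset_of_forall_exists_gt (((closedK F p).preimage
      (continuous_neg.smul continuous_const)).inter isClosed_Icc)
      (by simpa using smul_mem_segMin F.isExp hv le_rfl zero_le_one) fun x hx y hy => ?_
    obtain ⟨h1, h2, h3⟩ := hx
    have h4 : dist p (e p ((-x) • v)) = x * ‖v‖ := by
      rw [show dist p (e p ((-x) • v)) = ‖(-x) • v‖ from h1, norm_smul, norm_neg,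
        Real.norm_of_nonneg h2]
    by_contra hcon
    have h5 : ∀ t, x < t → t ≤ y → 2 * (t - x) * ‖v‖ ≤ ρ →
        ∃ s, |s - x| ≤ t - x ∧ e p (s • v) = e p ((-t) • v) ∧ dist p (e p ((-t) • v)) = s * ‖v‖ := by
      intro t k1 k2 k3
      obtain ⟨u, k4, k5⟩ := hr F p (e p ((-t) • v))
      have k6 : dist p (e p ((-t) • v)) = ‖u‖ := k5 ▸ k4
      have k7 := dist_exp_le F.isExp p v (-x) (-t)
      rw [show -t - -x = -(t - x) by ring, abs_neg, abs_of_pos (sub_pos.2 k1)] at k7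
      have k8 := abs_dist_sub_le (e p ((-t) • v)) (e p ((-x) • v)) p
      rw [dist_comm _ p, dist_comm _ p, dist_comm (e p _), k6, h4] at k8
      have k9 : |‖u‖ / ‖v‖ - x| ≤ t - x := by
        rw [div_sub' hn.ne', abs_div, abs_of_pos hn, div_le_iff₀ hn, mul_comm ‖v‖]
        exact k8.trans k7
      have k10 : u = (‖u‖ / ‖v‖) • v ∨ u = (-(‖u‖ / ‖v‖)) • v := by
        rcases eq_or_ne u 0 with rfl | hu
        · simp
        have hu' := norm_pos_iff.2 hu
        have k := H ((‖v‖ / ‖u‖) • u) (by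
          rw [norm_smul, Real.norm_of_nonneg (by positivity), div_mul_cancel₀ _ hu'.ne'])
        have k' : (‖u‖ / ‖v‖) • (‖v‖ / ‖u‖) • u = u := by
          rw [smul_smul, div_mul_div_cancel₀ hn.ne', div_self hu'.ne', one_smul]
        refine k.imp (fun k => ?_) fun k => ?_
        · rw [k] at k'
          exact k'.symm
        · rw [k, smul_neg, ← neg_smul] at k'
          exact k'.symm
      rcases k10 with k | k
      · exact ⟨_, k9, k ▸ k5, by rw [k6, div_mul_cancel₀ _ hn.ne']⟩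
      · obtain ⟨k11, k12⟩ := abs_le.1 k9
        have k13 := hmin p v (-t) (-(‖u‖ / ‖v‖)) (by
          rw [abs_of_nonneg (by linarith)]
          nlinarith)
        rw [← k, k5, dist_self, eq_comm, mul_eq_zero, abs_eq_zero] at k13
        refine absurd ⟨t, ?_, k1, k2⟩ hcon
        rw [show ‖u‖ / ‖v‖ = t by linarith [k13.resolve_left hn.ne']] at k
        exact show (-t) • v ∈ segMin e p from k ▸ k4
    have h6 : e p ((-x) • v) = e p (x • v) := by
      refine dist_le_zero.1 (le_of_forall_pos_le_add fun δ hδ => ?_)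
      obtain ⟨τ, k1, k2⟩ := exists_between (lt_min (sub_pos.2 hy)
        (show 0 < min ρ δ / (2 * ‖v‖) by positivity))
      rw [lt_min_iff, lt_div_iff₀ (by positivity), lt_min_iff] at k2
      obtain ⟨s, k3, k4, -⟩ := h5 (x + τ) (by linarith) (by linarith) (by nlinarith)
      have k5 := dist_exp_le F.isExp p v (-x) (-(x + τ))
      have k6 := dist_exp_le F.isExp p v x s
      rw [show -(x + τ) - -x = -τ by ring, abs_neg, abs_of_pos k1] at k5
      rw [k4] at k6
      have k7 := dist_triangle_right (e p ((-x) • v)) (e p (x • v)) (e p ((-(x + τ)) • v))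
      rw [add_sub_cancel_left] at k3
      nlinarith [mul_le_mul_of_nonneg_right k3 hn.le]
    have h7 := F.injDomain_unique (smul_mem_injDomain F.isExp hv h2 h3) h1 h6
    have h8 : x = 0 := by linarith [smul_left_injective ℝ hv0 h7]
    subst h8
    obtain ⟨τ, k1, k2⟩ := exists_between (lt_min hy (show 0 < ρ / ‖v‖ by positivity))
    rw [lt_min_iff, lt_div_iff₀ hn] at k2
    refine hcon ⟨τ, ?_, k1, k2.1.le⟩
    have k3 := hmin p v 0 (-τ) (by rw [sub_zero, abs_neg, abs_of_pos k1]; linarith)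
    rw [zero_smul, F.isExp.map_zero, sub_zero, mul_comm] at k3
    exact k3.trans (norm_smul (-τ) v).symm
  simpa using key ⟨zero_le_one, le_rfl⟩

theorem sphere_mem (h : ∀ y, Extends p y ∨ Critical p y) {v w : TangentSpace 𝓘(ℝ, E) p}
    (hv : v ∈ segMin e p) (hw : ‖w‖ = ‖v‖) : w ∈ segMin e p := by
  have key : ∀ {v w : TangentSpace 𝓘(ℝ, E) p}, v ∈ segMin e p → ‖w‖ = ‖v‖ → w ≠ -v →
      w ∈ segMin e p := by
    intro v w
    refine radial (R := Metric.diam (univ : Set M)) (closedK F p)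
      (fun v hv t => smul_mem_segMin F.isExp hv) (fun v hv => ?_) ?_ fun a ha hna ε hε => ?_
    · exact (show dist p (e p v) = ‖v‖ from hv) ▸
        Metric.dist_le_diam_of_mem isCompact_univ.isBounded (mem_univ _) (mem_univ _)
    · exact (Set.ext fun _ => mem_injDomain_iff F.isExp :
        injDomain e p = {v | ∃ a : ℝ, 1 < a ∧ a • v ∈ segMin e p}) ▸ F.isOpen_injDomain p
    · obtain ⟨C, hC, h1⟩ := exp_lip F a
      filter_upwards [h1, (cexp F p).continuousAt.eventually (((h _).resolve_left fun k =>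
        hna (inj_of_extends F ha k)) (ε / C) (by positivity))] with b k1 k2 hb
      rw [show dist p (e p b) = ‖b‖ from hb, show dist p (e p a) = ‖a‖ from ha] at k2
      refine k2.trans (add_le_add le_rfl ((mul_le_mul_of_nonneg_left k1 (by positivity)).trans_eq ?_))
      field_simp
  by_cases hne : w = -v
  · by_cases H : ∀ u : TangentSpace 𝓘(ℝ, E) p, ‖u‖ = ‖v‖ → u = v ∨ u = -v
    · exact hne ▸ neg_mem F hv H
    · push Not at H
      obtain ⟨u, h1, h2, h3⟩ := H
      exact key (key hv h1 h3) (hw.trans h1.symm) fun k => h2 (neg_injective (k.symm.trans hne))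
  · exact key hv hw hne

/-- Every point lies between `p` and a point at least as far as `q`. -/
theorem mb_of (h : ∀ y, Extends p y ∨ Critical p y) (m q : M) :
    ∃ z, dist p z = dist p m + dist m z ∧ dist p q ≤ dist p z := by
  rcases le_or_gt (dist p q) (dist p m) with k | k
  · exact ⟨m, by simp, k⟩
  obtain ⟨w, h1, rfl⟩ := hr F p m
  obtain ⟨u, h2, rfl⟩ := hr F p q
  rcases eq_or_ne w 0 with rfl | hw
  · exact ⟨e p u, by simp [F.isExp.map_zero], le_rfl⟩
  have hn := norm_pos_iff.2 hw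
  rw [show dist p (e p w) = ‖w‖ from h1, show dist p (e p u) = ‖u‖ from h2] at k
  have h3 : ‖(‖u‖ / ‖w‖) • w‖ = ‖u‖ := by
    rw [norm_smul, Real.norm_of_nonneg (by positivity), div_mul_cancel₀ _ hn.ne']
  have h4 := sphere_mem F h h2 h3
  exact ⟨_, (ext_of F ((one_lt_div hn).2 k) h4).1, (h2.trans (h3.symm.trans h4.symm)).le⟩

omit F in
theorem mb_all {P : Set M} (hP : Dense P) (h : ∀ p ∈ P, ∀ m q : M,
    ∃ z, dist p z = dist p m + dist m z ∧ dist p q ≤ dist p z) (p m q : M) :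
    ∃ z, dist p z = dist p m + dist m z ∧ dist p q ≤ dist p z := by
  have h1 := isClosedMap_fst_of_compactSpace
    {x : M × M | dist x.1 x.2 = dist x.1 m + dist m x.2 ∧ dist x.1 q ≤ dist x.1 x.2}
    ((isClosed_eq (by fun_prop) (by fun_prop)).inter
      (isClosed_le (continuous_fst.dist continuous_const) continuous_dist))
  obtain ⟨⟨_, z⟩, k, rfl⟩ := h1.closure_subset_iff.2
    (fun p hp => (h p hp m q).elim fun z hz => ⟨(p, z), hz, rfl⟩) (hP p)
  exact ⟨z, k⟩

theorem pb_of (h : ∀ m q : M, ∃ z, dist p z = dist p m + dist m z ∧ dist p q ≤ dist p z)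
    (v : TangentSpace 𝓘(ℝ, E) p) (q : M) (hv : ‖v‖ ≤ dist p q) : v ∈ segMin e p := by
  have h0 := injDomain_subset_segMin F.isExp p
  obtain ⟨δ, h1, h2⟩ : ∃ δ : ℝ, δ • v ∈ injDomain e p ∧ 0 < δ :=
    (((Continuous.tendsto' (f := fun t : ℝ => t • v) (by fun_prop) _ _ (zero_smul _ _)).mono_left
      (nhdsWithin_le_nhds (s := Ioi 0))).eventually ((F.isOpen_injDomain p).mem_nhds
        (zero_mem_injDomain F.isExp p))).and self_mem_nhdsWithin |>.exists
  obtain ⟨z, h3, h4⟩ := h (e p (δ • v)) q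
  obtain ⟨w, h5, rfl, t, h6, h7, h8, -⟩ := F.between h3.symm
  have h9 := F.injDomain_unique h1 (smul_mem_segMin F.isExp h5 h6 h7) h8
  have h10 : v = (t / δ) • w := by rw [div_eq_inv_mul, mul_smul, h9, inv_smul_smul₀ h2.ne']
  rcases eq_or_ne w 0 with rfl | hw
  · rwa [h10, smul_zero]
  refine h10 ▸ smul_mem_segMin F.isExp h5 (by positivity) ?_
  rw [h10, norm_smul, Real.norm_of_nonneg (by positivity)] at hv
  exact (mul_le_iff_le_one_left (norm_pos_iff.2 hw)).1 (hv.trans (h4.trans_eq h5))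

theorem all_of [Nonempty M] (h : ∀ (p : M) (v : TangentSpace 𝓘(ℝ, E) p) (q : M),
    ‖v‖ ≤ dist p q → v ∈ segMin e p) (x : M) (v : TangentSpace 𝓘(ℝ, E) x)
    (hv : ‖v‖ ≤ Metric.diam (univ : Set M)) : dist x (e x v) = ‖v‖ := by
  choose far hf using fun p : M => isCompact_univ.exists_isMaxOn univ_nonempty
    (continuous_const.dist continuous_id : Continuous fun q => dist p q).continuousOn
  let r : M → ℝ := fun p => dist p (far p)
  have h1 : ∀ p q, dist p q ≤ r p := fun p q => (hf p).2 (mem_univ q)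
  have h2 : ∀ p q, r p ≤ r q + dist p q := fun p q => by
    linarith [dist_triangle p q (far p), h1 q (far p)]
  obtain ⟨o, -, ho⟩ := isCompact_univ.exists_isMaxOn univ_nonempty
    (LipschitzWith.of_le_add h2).continuous.continuousOn
  refine h x v (far x) (hv.trans (Metric.diam_le_of_forall_dist_le dist_nonneg fun a _ b _ =>
    ((h1 a b).trans (ho (mem_univ a))).trans ?_))
  obtain ⟨w, h3, rfl⟩ := hr F o x
  rcases eq_or_ne w 0 with rfl | hw
  · rw [F.isExp.map_zero]
  have hn := norm_pos_iff.2 hw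
  let u := ‖w‖⁻¹ • w
  have hu : ‖u‖ = 1 := norm_smul_inv_norm (𝕜 := ℝ) hw
  let ρ : ℝ → ℝ := fun t => r (e o (t • u))
  have k1 : ∀ s t, ρ s ≤ ρ t + |t - s| := fun s t => (h2 _ _).trans (add_le_add le_rfl
    (by simpa only [hu, mul_one] using dist_exp_le F.isExp o u s t))
  have k2 : ∀ t s, |s| ≤ ρ t → dist (e o (t • u)) (e o ((t + s) • u)) = |s| := fun t s k => by
    obtain ⟨a, a1, a2⟩ := F.flow o u t
    have a3 : ‖s • a‖ = |s| := by rw [norm_smul, a1, hu, mul_one, Real.norm_eq_abs]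
    rw [← a2, ← a3]
    exact h _ _ _ (a3.le.trans k)
  have k0 : ∀ t, 0 ≤ ρ t := fun _ => dist_nonneg
  have k3 : ∀ t, ρ (t + ρ t) = ρ t := fun t => by
    refine le_antisymm (not_lt.1 fun k => ?_) ?_
    · have a1 := k1 (t + ρ t) (t + ρ t + (ρ (t + ρ t) - ρ t) / 2)
      rw [add_sub_cancel_left, abs_of_pos (by linarith)] at a1
      have a2 := k2 (t + ρ t + (ρ (t + ρ t) - ρ t) / 2) (-(ρ t + (ρ (t + ρ t) - ρ t) / 2)) (by
        rw [abs_neg, abs_of_pos (by linarith [k0 t])]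
        linarith)
      rw [abs_neg, abs_of_pos (by linarith [k0 t]), show t + ρ t + (ρ (t + ρ t) - ρ t) / 2 +
        -(ρ t + (ρ (t + ρ t) - ρ t) / 2) = t by ring, dist_comm] at a2
      have a3 : _ ≤ ρ t := a2.ge.trans (h1 _ _)
      linarith
    · have a1 := k2 t (ρ t) (abs_of_nonneg (k0 t)).le
      rw [abs_of_nonneg (k0 t), dist_comm] at a1
      exact a1.ge.trans (h1 _ _)
  have k4 : ∀ t (k : ℕ), ρ (t + k * ρ t) = ρ t := fun t k => by
    induction k with
    | zero => simp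
    | succ k ih =>
      have := k3 (t + k * ρ t)
      rwa [ih, show t + k * ρ t + ρ t = t + (k + 1 : ℕ) * ρ t by push_cast; ring] at this
  have k5 : ∀ k : ℕ, 0 + k * ρ 0 ≤ ‖w‖ + k * ρ ‖w‖ := fun k => by
    induction k with
    | zero => simp
    | succ k ih =>
      have := k1 (0 + k * ρ 0) (‖w‖ + k * ρ ‖w‖)
      rw [k4, k4, abs_of_nonneg (sub_nonneg.2 ih)] at this
      push_cast
      linarith
  have k6 : ρ 0 ≤ ρ ‖w‖ := not_lt.1 fun k => by
    obtain ⟨n, hn⟩ := exists_nat_gt (‖w‖ / (ρ 0 - ρ ‖w‖))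
    rw [div_lt_iff₀ (sub_pos.2 k)] at hn
    linarith [k5 n]
  simpa only [ρ, u, zero_smul, F.isExp.map_zero, smul_inv_smul₀ hn.ne'] using k6

/-- The main new step. -/
theorem inj_of_crit [Nonempty M] (h : Dense {p : M | ∀ y, Extends p y ∨ Critical p y}) (x : M)
    (v : TangentSpace 𝓘(ℝ, E) x) (hv : ‖v‖ ≤ Metric.diam (univ : Set M)) :
    dist x (e x v) = ‖v‖ :=
  all_of F (fun p => pb_of F (mb_all h (fun _ hp => mb_of F hp) p)) x v hv

end Vale.Agent.N231
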