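import Vale.Agent.N231.Top

/-! Characterisations of the compact rank one symmetric spaces by their cut points, under
hypotheses weaker than the Blaschke condition. -/

set_option maxSynthPendingDepth 3

open Bundle Manifold Set Vale.Agent.N231
open scoped ContDiff

namespace Vale.Agent.N231.OldCutPoints

theorem main {E : Type*} [NormedAddCommGroup E] [NormedSpace ℝ E] [FiniteDimensional ℝ E]
    {M : Type*} [MetricSpace M] [ChartedSpace E M] [IsManifold 𝓘(ℝ, E) ∞ M]
    [RiemannianBundle fun x : M => TangentSpace 𝓘(ℝ, E) x]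
    [IsContMDiffRiemannianBundle 𝓘(ℝ, E) ∞ E fun x : M => TangentSpace 𝓘(ℝ, E) x]
    [IsRiemannianManifold 𝓘(ℝ, E) M] [CompactSpace M] [ConnectedSpace M]
    (hdim : 1 ≤ Module.finrank ℝ E) (D : ℝ) (hD : D = Metric.diam (univ : Set M)) :
    ∀ e : ∀ x : M, TangentSpace 𝓘(ℝ, E) x → M, IsExp e →
      List.TFAE [Cross E M D,
        Dense {p : M | ∀ q, edist p q ≤ injAt e p},
        Dense {p : M | ∀ v w : TangentSpace 𝓘(ℝ, E) p, e p v = e p w → dist p (e p v) = ‖v‖ →
          ‖w‖ = ‖v‖ → ‖v‖ < D → v = w},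
        Dense {p : M | ∀ v w : TangentSpace 𝓘(ℝ, E) p, e p v = e p w → dist p (e p v) = ‖v‖ →
          ‖w‖ = ‖v‖ → v ≠ w → Critical p (e p v)},
        Dense {p : M | ∀ v : TangentSpace 𝓘(ℝ, E) p, ‖v‖ = 1 → ∃ L > 0,
          Function.Periodic (fun t : ℝ => e p (t • v)) (2 * L) ∧ dist p (e p (L • v)) = L}] :=
  fun _ he => (List.tfae_cons_cons.1 (tfae (old he) hdim D hD)).2

end Vale.Agent.N231.OldCutPoints
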