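import Vale.Agent.N231.Conv

/-! If the points joined to `p` by two shortest geodesics are critical, so are all cut points. -/

set_option maxSynthPendingDepth 3
set_option linter.unusedSectionVars false

open Bundle Manifold Set Filter
open scoped ContDiff Topology

namespace Vale.Agent.N231

open Vale.Agent.P234

theorem extends_of_slope {M : Type*} [MetricSpace M] [CompactSpace M] {p y : M} {δ : ℝ}
    (hδ : 0 < δ) (h : ∀ x, dist y x < δ → ∀ ε, 0 < ε → ε < 1 → ∀ r > 0,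
      ∃ z, z ≠ x ∧ dist x z < r ∧ dist p x + (1 - ε) * dist x z ≤ dist p z) : Extends p y := by
  have key : ∀ ε, 0 < ε → ε < 1 → ∃ z ∈ Metric.sphere y δ, dist p y + (1 - ε) * δ ≤ dist p z := by
    intro ε h0 h1
    obtain ⟨x, hx, hm⟩ := (Metric.isClosed_closedBall (x := y) (ε := δ)).isCompact.exists_isMaxOn
      ⟨y, Metric.mem_closedBall_self hδ.le⟩
      (f := fun z => dist p z - (1 - ε) * dist y z) (by fun_prop)
    have h2 : dist y x = δ := by
      refine (Metric.mem_closedBall'.1 hx).eq_of_not_lt fun k => ?_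
      obtain ⟨z, k1, k2, k3⟩ := h x k (ε / 2) (by linarith) (by linarith) _ (sub_pos.2 k)
      have k4 := dist_triangle y x z
      have k5 := isMaxOn_iff.1 hm z (Metric.mem_closedBall'.2 (by linarith))
      nlinarith [dist_pos.2 k1.symm]
    have h3 := isMaxOn_iff.1 hm y (Metric.mem_closedBall_self hδ.le)
    rw [dist_self, h2] at h3
    exact ⟨x, Metric.mem_sphere'.2 h2, by linarith⟩
  obtain ⟨z, hz, hm⟩ := (Metric.isClosed_sphere (x := y) (ε := δ)).isCompact.exists_isMaxOn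
    ((key (1 / 2) (by norm_num) (by norm_num)).imp fun _ => And.left)
    (f := fun z => dist p z) (by fun_prop)
  rw [Metric.mem_sphere'] at hz
  refine ⟨z, fun k => hδ.ne (by rw [← hz, k, dist_self]), le_antisymm (dist_triangle _ _ _)
    (le_of_forall_pos_le_add fun ε hε => ?_)⟩
  obtain ⟨x, k1, k2⟩ := key (ε / (ε + δ)) (by positivity) ((div_lt_one (by positivity)).2
    (by linarith))
  have k3 : dist p x ≤ dist p z := hm k1
  have k4 : ε / (ε + δ) * δ ≤ ε := by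
    rw [div_mul_eq_mul_div, div_le_iff₀ (by positivity)]
    nlinarith
  linarith

variable {E : Type*} [NormedAddCommGroup E] [NormedSpace ℝ E] [FiniteDimensional ℝ E]
  {M : Type*} [MetricSpace M] [ChartedSpace E M] [IsManifold 𝓘(ℝ, E) ∞ M]
  [RiemannianBundle (fun x : M => TangentSpace 𝓘(ℝ, E) x)]
  [IsContMDiffRiemannianBundle 𝓘(ℝ, E) ∞ E (fun x : M => TangentSpace 𝓘(ℝ, E) x)]
  [CompactSpace M] {e : ∀ x : M, TangentSpace 𝓘(ℝ, E) x → M} (F : Facts e) {p : M}
include F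

theorem near_of_unique {w : TangentSpace 𝓘(ℝ, E) p}
    (hu : ∀ v ∈ segMin e p, e p v = e p w → v = w) {δ : ℝ} (hδ : 0 < δ) :
    ∀ᶠ z in 𝓝 (e p w), ∀ v ∈ segMin e p, e p v = z → dist v w < δ := by
  have := FiniteDimensional.proper_real (TangentSpace 𝓘(ℝ, E) p)
  have h1 : IsCompact (segMin e p) := Metric.isCompact_of_isClosed_isBounded (closedK F p)
    (isBounded_iff_forall_norm_le.2 ⟨Metric.diam (univ : Set M), fun v hv =>
      (show dist p (e p v) = ‖v‖ from hv) ▸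
        Metric.dist_le_diam_of_mem isCompact_univ.isBounded (mem_univ _) (mem_univ _)⟩)
  filter_upwards [((h1.diff (Metric.isOpen_ball (x := w) (ε := δ))).image
    (cexp F p)).isClosed.isOpen_compl.mem_nhds fun ⟨v, k1, k2⟩ =>
      k1.2 (hu v k1.1 k2 ▸ Metric.mem_ball_self hδ)] with z hz v k1 k2
  exact by_contra fun k => hz ⟨v, ⟨k1, k⟩, k2⟩

theorem first_variation {w : TangentSpace 𝓘(ℝ, E) p} (hw : w ∈ segMin e p) (h0 : w ≠ 0)
    (hu : ∀ v ∈ segMin e p, e p v = e p w → v = w) :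
    ∃ u : TangentSpace 𝓘(ℝ, E) (e p w), 0 < ‖u‖ ∧ ∀ ε > 0, ∃ δ > 0, ∀ η (s : ℝ), 0 < s → ‖η‖ < δ →
      ‖η + s • u‖ < δ →
        dist p (e _ η) + (1 - ε) * (s * ‖u‖) ≤ dist p (e _ (η + s • u)) := by
  have hn := norm_pos_iff.2 h0
  obtain ⟨u, u1, u2⟩ := F.flow' w 1 (x' := e p w) (by rw [one_smul])
  refine ⟨u, u1 ▸ hn, fun ε hε => ?_⟩
  have z0 := F.isExp.map_zero (e p w)
  have h1 := F.smooth_between hw (s := 1 / 2) (t := 1) (by norm_num) (by norm_num) zero_le_one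
    le_rfl (by norm_num)
  have h2 := segMin_dist F.isExp hw (s := 1 / 2) (t := 1) (by norm_num) (by norm_num) le_rfl
  rw [one_smul, ← z0] at h1 h2
  have h3 : ContDiffAt ℝ ∞ (fun q : TangentSpace 𝓘(ℝ, E) p × TangentSpace 𝓘(ℝ, E) (e p w) =>
      dist (e p q.1) (e _ q.2)) ((1 / 2 : ℝ) • w, 0) := by
    have k : ∀ a b : M, √(2 * cost a b) = dist a b := fun a b => by
      rw [cost, mul_div_cancel₀ _ two_ne_zero, Real.sqrt_sq dist_nonneg]
    simpa only [k] using ((contDiffAt_const (c := (2 : ℝ))).mul (h1.coord F.isExp)).sqrt (by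
      rw [cost, h2]
      positivity)
  obtain ⟨A, hA⟩ : ∃ A, HasStrictFDerivAt _ A _ := ⟨_, h3.hasStrictFDerivAt (by simp)⟩
  obtain ⟨δ, d0, d1⟩ := Metric.eventually_nhds_iff.1 (hA.isLittleO.bound (half_pos hε))
  obtain ⟨δ', d2, d3⟩ := Metric.eventually_nhds_iff.1 (((cexp F _).continuousAt (x := 0)).eventually
    (z0.symm ▸ near_of_unique F hu d0))
  have key : ∀ η η' : TangentSpace 𝓘(ℝ, E) (e p w), ‖η‖ < min δ δ' → ‖η'‖ < min δ δ' →
      dist p (e _ η) + A (0, η' - η) - ε / 2 * ‖η' - η‖ ≤ dist p (e _ η') := by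
    intro η η' k1 k2
    rw [lt_min_iff] at k1 k2
    obtain ⟨v, k3, k4⟩ := hr F p (e _ η')
    have k5 : dist ((1 / 2 : ℝ) • v) ((1 / 2 : ℝ) • w) < δ := by
      have := d3 (y := η') (by simpa using k2.2) v k3 k4
      rw [dist_smul₀, Real.norm_of_nonneg (by norm_num)]
      linarith [dist_nonneg (x := v) (y := w)]
    have k6 := (abs_le.1 (d1 (y := (((1 / 2 : ℝ) • v, η'), ((1 / 2 : ℝ) • v, η))) (by
      simp only [Prod.dist_eq, max_lt_iff, dist_zero_right]
      exact ⟨⟨k5, k2.1⟩, k5, k1.1⟩))).1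
    simp only [Prod.mk_sub_mk, sub_self, Prod.norm_mk, norm_zero, norm_nonneg, sup_of_le_right]
      at k6
    have k7 := segMin_dist F.isExp k3 (s := 1 / 2) (t := 1) (by norm_num) (by norm_num) le_rfl
    have k8 := dist_exp_le' F.isExp p ((1 / 2 : ℝ) • v)
    have k9 : dist p (e p v) = ‖v‖ := k3
    rw [one_smul, k4] at k7
    rw [norm_smul, Real.norm_of_nonneg (by norm_num)] at k8
    rw [k4] at k9
    linarith [dist_triangle p (e p ((1 / 2 : ℝ) • v)) (e _ η)]
  have hl : ∀ s : ℝ, A (0, s • u) = s * A (0, u) := fun s => by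
    rw [← smul_eq_mul, ← map_smul, Prod.smul_mk, smul_zero]
  have hA' : (1 - ε / 2) * ‖w‖ ≤ A (0, u) := by
    obtain ⟨s, k1, k2⟩ := exists_between (lt_min one_pos (div_pos (lt_min d0 d2) hn))
    rw [lt_min_iff, lt_div_iff₀ hn] at k2
    have k3 : ‖(-s) • u‖ = s * ‖w‖ := by rw [norm_smul, norm_neg, Real.norm_of_nonneg k1.le, u1]
    have k4 := key 0 ((-s) • u) (by simpa using ⟨d0, d2⟩) (k3 ▸ k2.2)
    have k5 := dist_exp_le' F.isExp p ((1 + -s) • w)
    rw [norm_smul, Real.norm_of_nonneg (by linarith)] at k5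
    rw [sub_zero, hl, k3, u2, z0, show dist p (e p w) = ‖w‖ from hw] at k4
    nlinarith
  refine ⟨_, lt_min d0 d2, fun η s k1 k2 k3 => ?_⟩
  have k4 := key η _ k2 k3
  rw [add_sub_cancel_left, hl, norm_smul, Real.norm_of_nonneg k1.le] at k4
  rw [u1] at k4 ⊢
  nlinarith

theorem crit_of_multi (h : ∀ v w : TangentSpace 𝓘(ℝ, E) p, v ≠ w → e p v = e p w →
    dist p (e p v) = ‖v‖ → ‖w‖ = ‖v‖ → Critical p (e p v)) (y : M) :
    Extends p y ∨ Critical p y := by
  have hu : ∀ w ∈ segMin e p, ¬ Critical p (e p w) → ∀ v ∈ segMin e p, e p v = e p w → v = w :=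
    fun w hw hc v hv k => by_contra fun k' => hc (h w v (Ne.symm k') k.symm hw
      ((show dist p (e p v) = ‖v‖ from hv).symm.trans (k ▸ hw)))
  refine crit_or F (fun w hw h0 _ _ => or_iff_not_imp_right.2 fun hc => ?_) y
  obtain ⟨u, u0, hv⟩ := first_variation F hw h0 (hu w hw hc)
  obtain ⟨δ, d0, d1⟩ := hv (1 / 2) (by norm_num)
  refine extends_of_slope (lt_min d0 (norm_pos_iff.2 h0)) fun x hx ε e0 e1 r hr0 => ?_
  rw [lt_min_iff] at hx
  have hcx : ¬ Critical p x := fun k => by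
    obtain ⟨η, k1, rfl⟩ := hr F (e p w) x
    obtain ⟨C, hC, k2⟩ := exp_lip F η
    have k3 : Tendsto (fun s : ℝ => η + s • u) (𝓝[>] 0) (𝓝 η) :=
      (Continuous.tendsto' (f := fun s : ℝ => η + s • u) (by fun_prop) _ _
        (by simp)).mono_left nhdsWithin_le_nhds
    have k4 : ‖η‖ < δ := (show dist _ (e _ η) = ‖η‖ from k1) ▸ hx.1
    obtain ⟨s, ⟨a1, a2, a3⟩, a4⟩ := ((k3.eventually (k2.and (((cexp F _).continuousAt.eventually
      (k (1 / (4 * C)) (by positivity))).and ((isOpen_lt continuous_norm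
        continuous_const).mem_nhds k4)))).and self_mem_nhdsWithin).exists
    have a5 := d1 η s a4 k4 a3
    have a6 : 0 < s * ‖u‖ := mul_pos a4 u0
    rw [add_sub_cancel_left, norm_smul, Real.norm_of_nonneg (le_of_lt a4)] at a1
    have a7 := mul_le_mul_of_nonneg_left a1 (show 0 ≤ 1 / (4 * C) by positivity)
    rw [show 1 / (4 * C) * (C * (s * ‖u‖)) = s * ‖u‖ / 4 by field_simp] at a7
    linarith
  obtain ⟨v, k1, rfl⟩ := hr F p x
  obtain ⟨a, a0, ha⟩ := first_variation F k1 (fun k => by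
    rw [k, F.isExp.map_zero, dist_comm] at hx
    exact hx.2.ne hw) (hu v k1 hcx)
  obtain ⟨τ, t0, t1⟩ := ha ε e0
  obtain ⟨s, s0, s1⟩ := exists_between (div_pos (lt_min t0 hr0) a0)
  rw [lt_div_iff₀ a0, lt_min_iff] at s1
  have k2 : ‖s • a‖ = s * ‖a‖ := by rw [norm_smul, Real.norm_of_nonneg s0.le]
  have k3 := t1 0 s s0 (by simpa using t0) (by rw [zero_add, k2]; exact s1.1)
  have k4 := dist_exp_le' F.isExp _ (s • a)
  have k5 : 0 < (1 - ε) * (s * ‖a‖) := mul_pos (sub_pos.2 e1) (mul_pos s0 a0)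
  rw [F.isExp.map_zero, zero_add] at k3
  rw [k2] at k4
  exact ⟨e _ (s • a), fun k => by rw [k] at k3; linarith, k4.trans_lt s1.2,
    (add_le_add le_rfl (mul_le_mul_of_nonneg_left k4 (sub_pos.2 e1).le)).trans k3⟩

end Vale.Agent.N231
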