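import Vale.Agent.P231Z.Asm.Main
import Vale.Agent.P231Z.C.Main
import Vale.Agent.P231Z.D.Main
import Vale.Agent.P231W52.Conv
import Vale.Agent.P231W52.Geod
import Vale.Agent.N231.Uniq

/-! The characterisations of the compact rank one symmetric spaces. -/

set_option maxSynthPendingDepth 3
set_option linter.unusedSectionVars false

open Bundle Manifold Set Filter
open scoped ContDiff Topology

namespace Vale.Agent.N231

variable {E : Type*} [NormedAddCommGroup E] [NormedSpace ℝ E] [FiniteDimensional ℝ E]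
  {M : Type*} [MetricSpace M] [ChartedSpace E M] [IsManifold 𝓘(ℝ, E) ∞ M]
  [RiemannianBundle (fun x : M => TangentSpace 𝓘(ℝ, E) x)]
  [IsContMDiffRiemannianBundle 𝓘(ℝ, E) ∞ E (fun x : M => TangentSpace 𝓘(ℝ, E) x)]
  [IsRiemannianManifold 𝓘(ℝ, E) M] [CompactSpace M] [ConnectedSpace M]
  {e : ∀ x : M, TangentSpace 𝓘(ℝ, E) x → M}

theorem exu : ∃! e : ∀ x : M, TangentSpace 𝓘(ℝ, E) x → M, IsExp e :=
  let ⟨e, he⟩ := P234.exists_isExp (E := E) (M := M)
  ⟨e, P231W52.isExponential he, fun _ he' => P231W52.isExponential_unique he he'⟩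

theorem old (he : IsExp e) : P234.IsExp e :=
  let ⟨_, h⟩ := P234.exists_isExp (E := E) (M := M)
  P231W52.isExponential_unique h he ▸ h

theorem cross_of (he : P234.IsExp e) (hdim : 1 ≤ Module.finrank ℝ E)
    (h : inj e = ENNReal.ofReal (Metric.diam (univ : Set M))) :
    Cross E M (Metric.diam (univ : Set M)) := by
  obtain ⟨x₀⟩ : Nonempty M := inferInstance
  have F := P234.facts_of_isExp he
  have h0 := P231.diam_pos he (N := Module.finrank ℝ E - 1) (by omega) x₀
  have hinj := P231W52.injGeDiam_of (e := e) h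
  refine ⟨h0, (P231W52.conv ⟨F, hdim, h0, P231.injGE_of_injOn F h0 hinj, P231W52.hd_diam⟩
    (P231Z.Fin.main_of he hinj hdim (P231Z.C.volLe_sph e) (P231Z.C.volLe_proj e)
      P231Z.Asm.volLe_seven P231Z.D.cls)).imp (.imp fun _ k => ⟨⟨k.1.1, k.1.2, k.1.3⟩, k.2⟩)
    (.imp (.imp fun _ k => ⟨⟨k.1.1, k.1.2, k.1.3⟩, k.2.2⟩) (.imp (.imp fun _ => .imp_right
      (.imp fun _ k => ⟨⟨k.1.1, k.1.2, k.1.3⟩, k.2.2⟩)) (.imp (.imp fun _ => .imp_right
        (.imp fun _ k => ⟨⟨k.1.1, k.1.2, k.1.3⟩, k.2.2⟩))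
        (.imp_right (.imp fun _ k => ⟨⟨k.1.1, k.1.2, k.1.3⟩, k.2⟩)))))⟩

theorem tfae (he : P234.IsExp e) (hdim : 1 ≤ Module.finrank ℝ E) (D : ℝ)
    (hD : D = Metric.diam (univ : Set M)) :
    List.TFAE [inj e = ENNReal.ofReal D, Cross E M D,
      Dense {p : M | ∀ q, edist p q ≤ injAt e p},
      Dense {p : M | ∀ v w : TangentSpace 𝓘(ℝ, E) p, e p v = e p w → dist p (e p v) = ‖v‖ →
        ‖w‖ = ‖v‖ → ‖v‖ < D → v = w},
      Dense {p : M | ∀ v w : TangentSpace 𝓘(ℝ, E) p, e p v = e p w → dist p (e p v) = ‖v‖ →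
        ‖w‖ = ‖v‖ → v ≠ w → Critical p (e p v)},
      Dense {p : M | ∀ v : TangentSpace 𝓘(ℝ, E) p, ‖v‖ = 1 → ∃ L > 0,
        Function.Periodic (fun t : ℝ => e p (t • v)) (2 * L) ∧ dist p (e p (L • v)) = L}] := by
  subst hD
  have F := P234.facts_of_isExp he
  have k0 : P231.InjGE e (Metric.diam (univ : Set M)) →
      inj e = ENNReal.ofReal (Metric.diam (univ : Set M)) := fun h =>
    le_antisymm (P231W52.inj_le F hdim) (P231W52.le_inj F h)
  have k : Dense {p : M | ∀ y, Extends p y ∨ Critical p y} → _ := fun h => k0 (inj_of_crit F h)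
  tfae_have 1 → 2 := cross_of he hdim
  tfae_have 2 → 1 := fun h => k0 (inj_of_smooth F (smooth_cross h))
  tfae_have 1 → 3 := fun h => dense_univ.mono fun p _ q => (edist_dist p q).trans_le
    ((ENNReal.ofReal_le_ofReal (P231W52.hd_diam p q)).trans (h.ge.trans (iInf_le _ p)))
  tfae_have 3 → 1 := fun h => k (h.mono fun _ => crit_of_injAt F)
  tfae_have 1 → 4 := fun h => dense_univ.mono fun p _ v w h1 _ h2 h3 =>
    P231W52.injGeDiam_of (e := e) h p (mem_ball_zero_iff.2 h3)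
      (mem_ball_zero_iff.2 (h2.trans_lt h3)) h1
  tfae_have 4 → 5 := fun h => h.mono fun p hp v w h1 h2 h3 h4 ε hε => .of_forall fun z => by
    exact ((P231W52.hd_diam p z).trans ((not_lt.1 fun h5 => h4 (hp v w h1 h2 h3 h5)).trans_eq
      h2.symm)).trans (le_add_of_nonneg_right (by positivity))
  tfae_have 5 → 1 := fun h => k (h.mono fun _ hp =>
    crit_of_multi F fun v w h1 h2 h3 h4 => by exact hp v w h2 h3 h4 h1)
  tfae_have 1 → 6 := fun h => dense_univ.mono fun p _ v hv => by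
    have h0 := (cross_of he hdim h).1
    have hB := P231.injGE_of_injOn F h0 (P231W52.injGeDiam_of (e := e) h)
    have h1 : ‖Metric.diam (univ : Set M) • v‖ = Metric.diam (univ : Set M) := by
      rw [norm_smul, hv, mul_one, Real.norm_of_nonneg h0.le]
    exact ⟨_, h0, P231.gam_per F h0.le (P231.closed_of_inj_diam F h0 hB P231W52.hd_diam) p v hv,
      (hB p _ h1.le).trans h1⟩
  tfae_have 6 → 1 := fun h => k (h.mono fun _ => crit_of_closed F)
  tfae_finish

end Vale.Agent.N231
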